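import Mathlib

/-!
# Bin packing: packings, the optimum, configurations and the Gilmore-Gomory configuration LP

An instance is a multiset `I` of rational item sizes. These are the same notions as in the
problem text; the definitions are kept in one small file so that hand-ins can state results
about `opt I` and `lp I`.
-/

namespace Vale.Agent.Lib.P302.H7

/-- `IsPacking I P`: the multiset of bins `P` (a bin is the multiset of the sizes of its items)
is a packing of the items `I`: the bins together hold exactly the items of `I`,
and each bin has total size at most `1`. -/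
def IsPacking (I : Multiset ℚ) (P : Multiset (Multiset ℚ)) : Prop :=
  P.join = I ∧ ∀ b ∈ P, b.sum ≤ 1

/-- `opt I`: the least number of bins of a packing of `I`. -/
noncomputable def opt (I : Multiset ℚ) : ℕ :=
  sInf {k : ℕ | ∃ P : Multiset (Multiset ℚ), IsPacking I P ∧ Multiset.card P = k}

/-- A configuration of `I`: a multiset of sizes that occur in `I` (each size may be repeated
any number of times, also more often than it occurs in `I`) of total size at most `1`. -/
def IsConfig (I : Multiset ℚ) (c : Multiset ℚ) : Prop :=
  (∀ a ∈ c, a ∈ I) ∧ c.sum ≤ 1

/-- `IsFracSol I z`: `z` is a feasible solution of the Gilmore-Gomory configuration LP of `I`: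
`z` is nonnegative, supported on configurations, and for every size `s` of `I` the
configurations cover its multiplicity: `count s I ≤ ∑ c, count s c * z c`. -/
def IsFracSol (I : Multiset ℚ) (z : Multiset ℚ →₀ ℝ) : Prop :=
  (∀ c, 0 ≤ z c) ∧ (∀ c ∈ z.support, IsConfig I c) ∧
    ∀ s ∈ I, (Multiset.count s I : ℝ) ≤ z.sum (fun c w => (Multiset.count s c : ℝ) * w)

/-- `lp I`: the value of the configuration LP, the infimum of `∑ c, z c` over feasible `z`. -/
noncomputable def lp (I : Multiset ℚ) : ℝ :=
  sInf {v : ℝ | ∃ z : Multiset ℚ →₀ ℝ, IsFracSol I z ∧ v = z.sum (fun _ w => w)}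

end Vale.Agent.Lib.P302.H7
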