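import Mathlib
import Vale.Agent.Lib.P302.H7.Defs

/-!
# Weak duality for the configuration LP and the counting bounds it gives
-/

namespace Vale.Agent.Lib.P302.H7

open Multiset

/-- Weak duality: a nonnegative weighting `y` of the sizes under which every configuration
weighs at most `1` bounds every feasible LP value from below. -/
theorem weak_duality (I : Multiset ℚ) (y : ℚ → ℝ) (hy : ∀ a ∈ I, 0 ≤ y a)
    (hc : ∀ c, IsConfig I c → (c.map y).sum ≤ 1)
    (z : Multiset ℚ →₀ ℝ) (hz : IsFracSol I z) :
    (I.map y).sum ≤ z.sum (fun _ w => w) := by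
  classical
  obtain ⟨hz0, hzc, hcov⟩ := hz
  have h1 : (I.map y).sum = ∑ s ∈ I.toFinset, (Multiset.count s I : ℝ) * y s := by
    rw [Finset.sum_multiset_map_count]
    simp [nsmul_eq_mul]
  have h2 : ∀ c ∈ z.support, ∑ s ∈ I.toFinset, (Multiset.count s c : ℝ) * y s = (c.map y).sum := by
    intro c hcs
    have hsub : c.toFinset ⊆ I.toFinset := by
      intro a ha
      rw [Multiset.mem_toFinset] at ha ⊢
      exact (hzc c hcs).1 a ha
    rw [Finset.sum_multiset_map_count]
    rw [← Finset.sum_subset hsub]
    · simp [nsmul_eq_mul]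
    · intro a _ ha
      rw [Multiset.mem_toFinset] at ha
      simp [Multiset.count_eq_zero_of_notMem ha]
  calc (I.map y).sum = ∑ s ∈ I.toFinset, (Multiset.count s I : ℝ) * y s := h1
    _ ≤ ∑ s ∈ I.toFinset, (z.sum (fun c w => (Multiset.count s c : ℝ) * w)) * y s := by
        apply Finset.sum_le_sum
        intro s hs
        rw [Multiset.mem_toFinset] at hs
        exact mul_le_mul_of_nonneg_right (hcov s hs) (hy s hs)
    _ = ∑ c ∈ z.support, z c * ∑ s ∈ I.toFinset, (Multiset.count s c : ℝ) * y s := by
        simp only [Finsupp.sum, Finset.sum_mul, Finset.mul_sum]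
        rw [Finset.sum_comm]
        apply Finset.sum_congr rfl
        intro c _
        apply Finset.sum_congr rfl
        intro s _
        ring
    _ ≤ ∑ c ∈ z.support, z c * 1 := by
        apply Finset.sum_le_sum
        intro c hcs
        rw [h2 c hcs]
        exact mul_le_mul_of_nonneg_left (hc c (hzc c hcs)) (hz0 c)
    _ = z.sum (fun _ w => w) := by
        simp [Finsupp.sum]

/-- The trivial fractional solution: one bin for every item. -/
theorem exists_fracSol (I : Multiset ℚ) (hI : ∀ a ∈ I, 0 < a ∧ a ≤ 1) :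
    ∃ z : Multiset ℚ →₀ ℝ, IsFracSol I z := by
  classical
  refine ⟨∑ s ∈ I.toFinset, Finsupp.single ({s} : Multiset ℚ) (Multiset.count s I : ℝ), ?_, ?_, ?_⟩
  · intro c
    rw [Finsupp.finsetSum_apply]
    apply Finset.sum_nonneg
    intro s _
    rw [Finsupp.single_apply]
    split_ifs
    · positivity
    · exact le_refl _
  · intro c hcs
    rw [Finsupp.mem_support_iff, Finsupp.finsetSum_apply] at hcs
    obtain ⟨s, hs, hne⟩ := Finset.exists_ne_zero_of_sum_ne_zero hcs
    rw [Finsupp.single_apply] at hne
    have hc : ({s} : Multiset ℚ) = c := by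
      by_contra h
      simp [h] at hne
    rw [Multiset.mem_toFinset] at hs
    subst hc
    refine ⟨?_, ?_⟩
    · intro a ha
      rw [Multiset.mem_singleton] at ha
      rw [ha]
      exact hs
    · simpa using (hI s hs).2
  · intro t ht
    rw [← Finsupp.sum_finsetSum_index (h := fun c w => (Multiset.count t c : ℝ) * w)
      (fun _ => mul_zero _) (fun _ _ _ => mul_add _ _ _)]
    have hterm : ∀ s ∈ I.toFinset,
        (Finsupp.single ({s} : Multiset ℚ) (Multiset.count s I : ℝ)).sum
          (fun c w => (Multiset.count t c : ℝ) * w)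
          = if s = t then (Multiset.count t I : ℝ) else 0 := by
      intro s _
      rw [Finsupp.sum_single_index (mul_zero _)]
      by_cases hst : s = t
      · subst hst
        simp
      · have : Multiset.count t ({s} : Multiset ℚ) = 0 := by
          rw [Multiset.count_eq_zero, Multiset.mem_singleton]
          exact fun h => hst h.symm
        simp [this, hst]
    rw [Finset.sum_congr rfl hterm]
    rw [Finset.sum_ite_eq' I.toFinset t]
    simp [Multiset.mem_toFinset, ht]

/-- Weak duality for the LP value. -/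
theorem dual_le_lp (I : Multiset ℚ) (hI : ∀ a ∈ I, 0 < a ∧ a ≤ 1) (y : ℚ → ℝ)
    (hy : ∀ a ∈ I, 0 ≤ y a) (hc : ∀ c, IsConfig I c → (c.map y).sum ≤ 1) :
    (I.map y).sum ≤ lp I := by
  unfold lp
  apply le_csInf
  · obtain ⟨z, hz⟩ := exists_fracSol I hI
    exact ⟨_, z, hz, rfl⟩
  · rintro v ⟨z, hz, rfl⟩
    exact weak_duality I y hy hc z hz

end Vale.Agent.Lib.P302.H7
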