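import Mathlib
import Vale.Agent.Lib.P302.H7.Defs
import Vale.Agent.Lib.P302.H7.Dual

/-!
# Counting bounds from weak duality

`big θ s` is the multiset of the items of `s` larger than `θ`. For an instance with item sizes
in `(0,1]` we show `I.sum ≤ lp I`, `#{a > 1/2} ≤ lp I`, `#{a > 1/3} ≤ 2 lp I`, and the fitting
lemma used when there are three items larger than `1/2`.
-/

namespace Vale.Agent.Lib.P302.H7

open Multiset

/-- the indicator weight of the sizes larger than `θ` -/
noncomputable def ind (θ : ℚ) (a : ℚ) : ℝ := if θ < a then 1 else 0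

theorem ind_nonneg (θ a : ℚ) : 0 ≤ ind θ a := by
  unfold ind
  split_ifs <;> norm_num

theorem sum_ind (θ : ℚ) (s : Multiset ℚ) :
    (s.map (ind θ)).sum = (Multiset.card (s.filter (fun a => θ < a)) : ℝ) := by
  induction s using Multiset.induction_on with
  | empty => simp
  | cons a s ih =>
    rw [Multiset.map_cons, Multiset.sum_cons, ih]
    by_cases h : θ < a
    · rw [Multiset.filter_cons_of_pos _ h, Multiset.card_cons]
      simp [ind, h]
      ring
    · rw [Multiset.filter_cons_of_neg _ h]
      simp [ind, h]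

/-- In a multiset of positive numbers, the elements larger than `θ > 0` are fewer than
`sum / θ` (strictly, unless there are none). -/
theorem card_filter_mul_lt (θ : ℚ) (c : Multiset ℚ) (hc : ∀ a ∈ c, 0 < a) :
    Multiset.card (c.filter (fun a => θ < a)) = 0 ∨
      (Multiset.card (c.filter (fun a => θ < a)) : ℚ) * θ < c.sum := by
  induction c using Multiset.induction_on with
  | empty => left; simp
  | cons a s ih =>
    have hs : ∀ b ∈ s, 0 < b := fun b hb => hc b (Multiset.mem_cons_of_mem hb)
    have ha : 0 < a := hc a (Multiset.mem_cons_self a s)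
    have hsum : 0 ≤ s.sum := Multiset.sum_nonneg (fun b hb => (hs b hb).le)
    by_cases h : θ < a
    · right
      rw [Multiset.filter_cons_of_pos _ h, Multiset.card_cons, Multiset.sum_cons]
      push_cast
      rcases ih hs with h0 | h1
      · rw [h0]
        simp only [Nat.cast_zero, zero_add, one_mul]
        linarith
      · linarith
    · rw [Multiset.filter_cons_of_neg _ h, Multiset.sum_cons]
      rcases ih hs with h0 | h1
      · left; exact h0
      · right; linarith

/-- A configuration holds at most one item larger than `1/2`. -/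
theorem config_big_le_one (I c : Multiset ℚ) (hI : ∀ a ∈ I, 0 < a ∧ a ≤ 1) (hc : IsConfig I c) :
    Multiset.card (c.filter (fun a => (1 / 2 : ℚ) < a)) ≤ 1 := by
  have hpos : ∀ a ∈ c, 0 < a := fun a ha => (hI a (hc.1 a ha)).1
  rcases card_filter_mul_lt (1 / 2) c hpos with h0 | h1
  · omega
  · have h2 : (Multiset.card (c.filter (fun a => (1 / 2 : ℚ) < a)) : ℚ) < 2 := by
      have := hc.2
      linarith
    have h3 : Multiset.card (c.filter (fun a => (1 / 2 : ℚ) < a)) < 2 := by exact_mod_cast h2
    omega

/-- A configuration holds at most two items larger than `1/3`. -/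
theorem config_third_le_two (I c : Multiset ℚ) (hI : ∀ a ∈ I, 0 < a ∧ a ≤ 1)
    (hc : IsConfig I c) :
    Multiset.card (c.filter (fun a => (1 / 3 : ℚ) < a)) ≤ 2 := by
  have hpos : ∀ a ∈ c, 0 < a := fun a ha => (hI a (hc.1 a ha)).1
  rcases card_filter_mul_lt (1 / 3) c hpos with h0 | h1
  · omega
  · have h2 : (Multiset.card (c.filter (fun a => (1 / 3 : ℚ) < a)) : ℚ) < 3 := by
      have := hc.2
      linarith
    have h3 : Multiset.card (c.filter (fun a => (1 / 3 : ℚ) < a)) < 3 := by exact_mod_cast h2
    omega

theorem cast_sum (c : Multiset ℚ) : (c.map (fun a : ℚ => (a : ℝ))).sum = ((c.sum : ℚ) : ℝ) := by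
  induction c using Multiset.induction_on with
  | empty => simp
  | cons a s ih =>
    rw [Multiset.map_cons, Multiset.sum_cons, Multiset.sum_cons, ih]
    push_cast
    ring

/-- The total size is a lower bound for the LP value. -/
theorem sum_le_lp (I : Multiset ℚ) (hI : ∀ a ∈ I, 0 < a ∧ a ≤ 1) : ((I.sum : ℚ) : ℝ) ≤ lp I := by
  have h := dual_le_lp I hI (fun a => (a : ℝ)) (fun a ha => by exact_mod_cast (hI a ha).1.le)
    (fun c hc => by
      rw [cast_sum]
      exact_mod_cast hc.2)
  rw [cast_sum] at h
  exact h

/-- The number of items larger than `1/2` is a lower bound for the LP value. -/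
theorem card_big_le_lp (I : Multiset ℚ) (hI : ∀ a ∈ I, 0 < a ∧ a ≤ 1) :
    (Multiset.card (I.filter (fun a => (1 / 2 : ℚ) < a)) : ℝ) ≤ lp I := by
  have h := dual_le_lp I hI (ind (1 / 2)) (fun a _ => ind_nonneg _ a)
    (fun c hc => by
      rw [sum_ind]
      exact_mod_cast config_big_le_one I c hI hc)
  rw [sum_ind] at h
  exact h

/-- Half the number of items larger than `1/3` is a lower bound for the LP value. -/
theorem card_third_le_lp (I : Multiset ℚ) (hI : ∀ a ∈ I, 0 < a ∧ a ≤ 1) :
    (Multiset.card (I.filter (fun a => (1 / 3 : ℚ) < a)) : ℝ) ≤ 2 * lp I := by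
  have h := dual_le_lp I hI (fun a => (1 / 2 : ℝ) * ind (1 / 3) a)
    (fun a _ => mul_nonneg (by norm_num) (ind_nonneg _ a))
    (fun c hc => by
      rw [Multiset.sum_map_mul_left, sum_ind]
      have h2 : (Multiset.card (c.filter (fun a => (1 / 3 : ℚ) < a)) : ℝ) ≤ 2 := by
        exact_mod_cast config_third_le_two I c hI hc
      linarith)
  rw [Multiset.sum_map_mul_left, sum_ind] at h
  linarith

/-- Two distinct members of a multiset of positive numbers sum to at most the total. -/
theorem add_le_sum_of_mem (c : Multiset ℚ) (hc : ∀ a ∈ c, 0 < a) (a b : ℚ) (ha : a ∈ c)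
    (hb : b ∈ c) (hab : a ≠ b) : a + b ≤ c.sum := by
  obtain ⟨c1, rfl⟩ := Multiset.exists_cons_of_mem ha
  have hb1 : b ∈ c1 := by
    rcases Multiset.mem_cons.mp hb with h | h
    · exact absurd h.symm hab
    · exact h
  obtain ⟨c2, rfl⟩ := Multiset.exists_cons_of_mem hb1
  rw [Multiset.sum_cons, Multiset.sum_cons]
  have : 0 ≤ c2.sum := Multiset.sum_nonneg (fun x hx =>
    (hc x (Multiset.mem_cons_of_mem (Multiset.mem_cons_of_mem hx))).le)
  linarith

/-- If the LP value is at most `3` and there are three items larger than `1/2` and at least one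
item in `(1/3, 1/2]`, then some item larger than `1/2` fits into a bin together with some item
of `(1/3, 1/2]`. -/
theorem exists_fit (I : Multiset ℚ) (hI : ∀ a ∈ I, 0 < a ∧ a ≤ 1) (hlp : lp I ≤ 3)
    (h3 : 3 ≤ Multiset.card (I.filter (fun a => (1 / 2 : ℚ) < a)))
    (h4 : Multiset.card (I.filter (fun a => (1 / 2 : ℚ) < a)) <
      Multiset.card (I.filter (fun a => (1 / 3 : ℚ) < a))) :
    ∃ b ∈ I, ∃ m ∈ I, (1 / 2 : ℚ) < b ∧ (1 / 3 : ℚ) < m ∧ ¬ (1 / 2 : ℚ) < m ∧ b + m ≤ 1 := by
  by_contra hno
  push Not at hno
  have h := dual_le_lp I hI (fun a => (1 / 2 : ℝ) * ind (1 / 2) a + (1 / 2 : ℝ) * ind (1 / 3) a)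
    (fun a _ => add_nonneg (mul_nonneg (by norm_num) (ind_nonneg _ a))
      (mul_nonneg (by norm_num) (ind_nonneg _ a)))
    (fun c hc => by
      rw [Multiset.sum_map_add, Multiset.sum_map_mul_left, Multiset.sum_map_mul_left,
        sum_ind, sum_ind]
      have hpos : ∀ a ∈ c, 0 < a := fun a ha => (hI a (hc.1 a ha)).1
      have h1 := config_big_le_one I c hI hc
      have h2 := config_third_le_two I c hI hc
      have hle : Multiset.card (c.filter (fun a => (1 / 2 : ℚ) < a)) ≤
          Multiset.card (c.filter (fun a => (1 / 3 : ℚ) < a)) := by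
        apply Multiset.card_le_card
        apply Multiset.monotone_filter_right
        intro a ha
        linarith
      have hkey : Multiset.card (c.filter (fun a => (1 / 2 : ℚ) < a)) +
          Multiset.card (c.filter (fun a => (1 / 3 : ℚ) < a)) ≤ 2 := by
        by_contra hcon
        have e1 : Multiset.card (c.filter (fun a => (1 / 2 : ℚ) < a)) = 1 := by omega
        have e2 : Multiset.card (c.filter (fun a => (1 / 3 : ℚ) < a)) = 2 := by omega
        -- a big item and a medium item lie in `c`
        obtain ⟨b, hb⟩ := Multiset.card_pos_iff_exists_mem.mp (by omega :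
          0 < Multiset.card (c.filter (fun a => (1 / 2 : ℚ) < a)))
        rw [Multiset.mem_filter] at hb
        have hsplit : c.filter (fun a => (1 / 3 : ℚ) < a)
            = (c.filter (fun a => (1 / 3 : ℚ) < a)).filter (fun a => (1 / 2 : ℚ) < a)
              + (c.filter (fun a => (1 / 3 : ℚ) < a)).filter (fun a => ¬ (1 / 2 : ℚ) < a) :=
          (Multiset.filter_add_not _ _).symm
        have hff : (c.filter (fun a => (1 / 3 : ℚ) < a)).filter (fun a => (1 / 2 : ℚ) < a)
            = c.filter (fun a => (1 / 2 : ℚ) < a) := by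
          rw [Multiset.filter_filter]
          apply Multiset.filter_congr
          intro a _
          constructor
          · exact fun h => h.1
          · exact fun h => ⟨h, by linarith⟩
        have hcard := congrArg Multiset.card hsplit
        rw [Multiset.card_add, hff, e1, e2] at hcard
        obtain ⟨m, hm⟩ := Multiset.card_pos_iff_exists_mem.mp (by omega :
          0 < Multiset.card ((c.filter (fun a => (1 / 3 : ℚ) < a)).filter
            (fun a => ¬ (1 / 2 : ℚ) < a)))
        rw [Multiset.mem_filter, Multiset.mem_filter] at hm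
        have hbm : b ≠ m := by
          intro e
          rw [e] at hb
          exact hm.2 hb.2
        have hsum := add_le_sum_of_mem c hpos b m hb.1 hm.1.1 hbm
        have := hno b (hc.1 b hb.1) m (hc.1 m hm.1.1) hb.2 hm.1.2 (not_lt.mp hm.2)
        have := hc.2
        linarith
      have hkey' : (Multiset.card (c.filter (fun a => (1 / 2 : ℚ) < a)) : ℝ) +
          (Multiset.card (c.filter (fun a => (1 / 3 : ℚ) < a)) : ℝ) ≤ 2 := by
        exact_mod_cast hkey
      linarith)
  rw [Multiset.sum_map_add, Multiset.sum_map_mul_left, Multiset.sum_map_mul_left,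
    sum_ind, sum_ind] at h
  have h3' : (3 : ℝ) ≤ (Multiset.card (I.filter (fun a => (1 / 2 : ℚ) < a)) : ℝ) := by
    exact_mod_cast h3
  have h4' : (Multiset.card (I.filter (fun a => (1 / 2 : ℚ) < a)) : ℝ) + 1 ≤
      (Multiset.card (I.filter (fun a => (1 / 3 : ℚ) < a)) : ℝ) := by
    exact_mod_cast h4
  linarith

end Vale.Agent.Lib.P302.H7
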