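import Mathlib
import Vale.Agent.Lib.P302.H7.Defs

/-!
# Elementary packing constructions

Singleton bins, pairing of items of size at most `1/2`, padding with empty bins, and the
first-fit lemma: items that are small compared with the number of bins can always be added.
-/

namespace Vale.Agent.Lib.P302.H7

open Multiset

theorem opt_le (I : Multiset ℚ) (P : Multiset (Multiset ℚ)) (hP : IsPacking I P) :
    opt I ≤ Multiset.card P := by
  unfold opt
  exact Nat.sInf_le ⟨P, hP, rfl⟩

theorem isPacking_add (A B : Multiset ℚ) (P Q : Multiset (Multiset ℚ)) (hP : IsPacking A P)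
    (hQ : IsPacking B Q) : IsPacking (A + B) (P + Q) := by
  refine ⟨?_, ?_⟩
  · rw [Multiset.join_add, hP.1, hQ.1]
  · intro b hb
    rcases Multiset.mem_add.mp hb with h | h
    · exact hP.2 b h
    · exact hQ.2 b h

theorem isPacking_cons (A : Multiset ℚ) (P : Multiset (Multiset ℚ)) (b : Multiset ℚ)
    (hb : b.sum ≤ 1) (hP : IsPacking A P) : IsPacking (b + A) (b ::ₘ P) := by
  refine ⟨?_, ?_⟩
  · rw [Multiset.join_cons, hP.1]
  · intro c hc
    rcases Multiset.mem_cons.mp hc with h | h
    · rw [h]; exact hb
    · exact hP.2 c h

/-- one bin for every item -/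
theorem isPacking_singletons (s : Multiset ℚ) (hs : ∀ a ∈ s, a ≤ 1) :
    IsPacking s (s.map (fun a => ({a} : Multiset ℚ))) := by
  refine ⟨?_, ?_⟩
  · induction s using Multiset.induction_on with
    | empty => simp
    | cons a s ih =>
      rw [Multiset.map_cons, Multiset.join_cons,
        ih (fun b hb => hs b (Multiset.mem_cons_of_mem hb))]
      simp
  · intro b hb
    obtain ⟨a, ha, rfl⟩ := Multiset.mem_map.mp hb
    simpa using hs a ha

/-- padding with empty bins -/
theorem isPacking_pad (A : Multiset ℚ) (P : Multiset (Multiset ℚ)) (k : ℕ) (hP : IsPacking A P)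
    (hk : Multiset.card P ≤ k) : ∃ Q, IsPacking A Q ∧ Multiset.card Q = k := by
  refine ⟨P + Multiset.replicate (k - Multiset.card P) 0, ⟨?_, ?_⟩, ?_⟩
  · rw [Multiset.join_add, hP.1]
    have : (Multiset.replicate (k - Multiset.card P) (0 : Multiset ℚ)).join = 0 := by
      generalize k - Multiset.card P = n
      induction n with
      | zero => simp
      | succ n ih => rw [Multiset.replicate_succ, Multiset.join_cons, ih]; simp
    rw [this, add_zero]
  · intro b hb
    rcases Multiset.mem_add.mp hb with h | h
    · exact hP.2 b h
    · rw [Multiset.eq_of_mem_replicate h]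
      simp
  · rw [Multiset.card_add, Multiset.card_replicate]
    omega

/-- items of size at most `1/2` can be packed two to a bin -/
theorem pairUp_list : ∀ (n : ℕ) (l : List ℚ), l.length = n → (∀ a ∈ l, a ≤ 1 / 2) →
    ∃ P : Multiset (Multiset ℚ), IsPacking (l : Multiset ℚ) P ∧
      2 * Multiset.card P ≤ l.length + 1 := by
  intro n
  induction n using Nat.strong_induction_on with
  | _ n ih =>
    intro l hl hle
    match l, hl, hle with
    | [], _, _ =>
      exact ⟨0, ⟨by simp, by simp⟩, by simp⟩
    | [a], _, hle =>
      refine ⟨{{a}}, ⟨by simp, ?_⟩, by simp⟩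
      intro b hb
      rw [Multiset.mem_singleton] at hb
      rw [hb]
      have := hle a (by simp)
      simp only [Multiset.sum_singleton]
      linarith
    | a :: b :: t, hl, hle =>
      have hlen : t.length < n := by
        simp only [List.length_cons] at hl
        omega
      obtain ⟨P, hP, hcard⟩ := ih t.length hlen t rfl
        (fun x hx => hle x (List.mem_cons_of_mem _ (List.mem_cons_of_mem _ hx)))
      refine ⟨({a, b} : Multiset ℚ) ::ₘ P, ?_, ?_⟩
      · have h1 := isPacking_cons (t : Multiset ℚ) P ({a, b} : Multiset ℚ) (by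
          have ha := hle a (by simp)
          have hb := hle b (by simp)
          simp only [Multiset.insert_eq_cons, Multiset.sum_cons, Multiset.sum_singleton]
          linarith) hP
        have h2 : ((a :: b :: t : List ℚ) : Multiset ℚ) = ({a, b} : Multiset ℚ) + (t : Multiset ℚ) := by
          rw [← Multiset.cons_coe, ← Multiset.cons_coe]
          simp [Multiset.insert_eq_cons]
        rw [h2]
        exact h1
      · rw [Multiset.card_cons]
        simp only [List.length_cons]
        omega

theorem pairUp (s : Multiset ℚ) (hs : ∀ a ∈ s, a ≤ 1 / 2) :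
    ∃ P : Multiset (Multiset ℚ), IsPacking s P ∧ 2 * Multiset.card P ≤ Multiset.card s + 1 := by
  induction s using Quotient.inductionOn with
  | _ l =>
    obtain ⟨P, hP, hc⟩ := pairUp_list l.length l rfl (fun a ha => hs a (by simpa using ha))
    exact ⟨P, hP, by simpa using hc⟩

theorem card_nsmul_lt_sum_map (t : ℚ) (P : Multiset (Multiset ℚ))
    (h : ∀ b ∈ P, t < b.sum) (hP : 0 < Multiset.card P) :
    (Multiset.card P : ℚ) * t < (P.map Multiset.sum).sum := by
  induction P using Multiset.induction_on with
  | empty => simp at hP
  | cons b P ih =>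
    rw [Multiset.map_cons, Multiset.sum_cons, Multiset.card_cons]
    push_cast
    have hb := h b (Multiset.mem_cons_self b P)
    by_cases h0 : Multiset.card P = 0
    · have : P = 0 := Multiset.card_eq_zero.mp h0
      subst this
      simp
      linarith
    · have := ih (fun c hc => h c (Multiset.mem_cons_of_mem hc)) (Nat.pos_of_ne_zero h0)
      linarith

/-- First fit: if `k ≥ 1` bins are open, the total size is at most `K`, and every new item `x`
is positive and so small that `K ≤ k (1 - x) + x`, then the new items fit into the open bins. -/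
theorem first_fit (k : ℕ) (hk : 0 < k) (K : ℚ) : ∀ (J A : Multiset ℚ)
    (P : Multiset (Multiset ℚ)), IsPacking A P → Multiset.card P = k →
    (∀ x ∈ J, 0 < x ∧ K ≤ k * (1 - x) + x) → (A + J).sum ≤ K →
    ∃ Q, IsPacking (A + J) Q ∧ Multiset.card Q = k := by
  intro J
  induction J using Multiset.induction_on with
  | empty =>
    intro A P hP hc _ _
    exact ⟨P, by simpa using hP, hc⟩
  | cons x J ih =>
    intro A P hP hc hJ hsum
    have hx := hJ x (Multiset.mem_cons_self x J)
    have hJpos : 0 ≤ J.sum := Multiset.sum_nonneg
      (fun y hy => (hJ y (Multiset.mem_cons_of_mem hy)).1.le)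
    have hfit : ∃ b ∈ P, b.sum + x ≤ 1 := by
      by_contra hno
      push Not at hno
      have h1 := card_nsmul_lt_sum_map (1 - x) P (fun b hb => by
        have := hno b hb
        linarith) (by omega)
      have h2 : (P.map Multiset.sum).sum = A.sum := by
        rw [← hP.1, Multiset.sum_join]
      rw [h2, hc] at h1
      rw [Multiset.sum_add, Multiset.sum_cons] at hsum
      linarith [hx.2]
    obtain ⟨b, hb, hbx⟩ := hfit
    have hP1 : IsPacking (x ::ₘ A) ((x ::ₘ b) ::ₘ P.erase b) := by
      refine ⟨?_, ?_⟩
      · rw [Multiset.join_cons, Multiset.cons_add, ← Multiset.join_cons, Multiset.cons_erase hb,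
          hP.1]
      · intro c hcm
        rcases Multiset.mem_cons.mp hcm with h | h
        · rw [h, Multiset.sum_cons]
          linarith
        · exact hP.2 c (Multiset.mem_of_mem_erase h)
    have hc1 : Multiset.card ((x ::ₘ b) ::ₘ P.erase b) = k := by
      rw [Multiset.card_cons, Multiset.card_erase_of_mem hb, hc]
      exact Nat.succ_pred_eq_of_pos hk
    obtain ⟨Q, hQ, hQc⟩ := ih (x ::ₘ A) _ hP1 hc1
      (fun y hy => hJ y (Multiset.mem_cons_of_mem hy)) (by
        have : x ::ₘ A + J = A + x ::ₘ J := by
          rw [Multiset.cons_add, Multiset.add_cons]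
        rw [this]
        exact hsum)
    refine ⟨Q, ?_, hQc⟩
    have : A + x ::ₘ J = x ::ₘ A + J := by
      rw [Multiset.cons_add, Multiset.add_cons]
    rw [this]
    exact hQ

end Vale.Agent.Lib.P302.H7
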